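import Vale.Agent.P272.HY.Defs
import Vale.Agent.P272.K.N.Hess

/-!
# P272, block A15: the complex Hessian along a holomorphic disc
-/

open scoped Manifold ContDiff ComplexOrder Topology
open Metric Set Filter Complex

noncomputable section

namespace Vale.Agent.P272.JN

open Vale.Agent.P272.K Vale.Agent.P272.GJ

variable {n : ℕ}

lemma quad_cHess {Φ : Cm n → ℝ} {p : Cm n} (h : ContDiffAt ℝ 2 Φ p) (ξ : Cm n) :
    (quad (cHess Φ p) ξ).re = (fderiv ℝ (fderiv ℝ Φ) p ξ ξ +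
      fderiv ℝ (fderiv ℝ Φ) p (I • ξ) (I • ξ)) / 4 := by
  have hd : DifferentiableAt ℝ (fderiv ℝ Φ) p :=
    (h.fderiv_right (m := 1) (by norm_num)).differentiableAt (by norm_num)
  have hs : ∀ a b, fderiv ℝ (fderiv ℝ Φ) p a b = fderiv ℝ (fderiv ℝ Φ) p b a := fun a b =>
    (h.isSymmSndFDerivAt (by simp)) a b
  have h1 := N.lev_quadratic hs (fun i => cj (ξ i))
  have h2 : star (fun i => cj (ξ i)) = ξ := by
    funext i; simp [cj]
  rw [quad_eq, N.cHess_eq_lev hd, h1, h2]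
  simp

/-- **chain rule** for `∂_z∂_{z̄}` along a holomorphic disc -/
theorem ddb_comp_holo {Φ : Cm n → ℝ} {u : ℂ → Cm n} {z : ℂ} (hu : AnalyticAt ℂ u z)
    (hΦ : ContDiffAt ℝ 2 Φ (u z)) :
    ddb (fun w => Φ (u w)) z = (quad (cHess Φ (u z)) (deriv u z)).re := by
  have hev : ∀ᶠ w in 𝓝 z, AnalyticAt ℂ u w := hu.eventually_analyticAt
  have hevΦ : ∀ᶠ w in 𝓝 z, ContDiffAt ℝ 2 Φ (u w) :=
    hu.continuousAt.eventually (hΦ.eventually (by simp))
  have hR : ∀ {w : ℂ}, AnalyticAt ℂ u w → ∀ a : ℂ, fderiv ℝ u w a = a • deriv u w := by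
    intro w hw a
    rw [hw.differentiableAt.fderiv_restrictScalars ℝ]
    show fderiv ℂ u w a = _
    rw [fderiv_eq_smul_deriv]
  have h1 : ∀ a : ℂ, (fun w => fderiv ℝ (fun w => Φ (u w)) w a) =ᶠ[𝓝 z]
      fun w => fderiv ℝ Φ (u w) (a • deriv u w) := by
    intro a
    filter_upwards [hev, hevΦ] with w hw hw2
    have h3 := (hw2.differentiableAt (by norm_num)).hasFDerivAt.comp w
      (hw.differentiableAt.restrictScalars ℝ).hasFDerivAt
    have h4 : fderiv ℝ (fun w => Φ (u w)) w = (fderiv ℝ Φ (u w)).comp (fderiv ℝ u w) := h3.fderiv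
    rw [h4, ContinuousLinearMap.comp_apply, hR hw]
  have hd2 : DifferentiableAt ℝ (fderiv ℝ Φ) (u z) :=
    (hΦ.fderiv_right (m := 1) (by norm_num)).differentiableAt (by norm_num)
  have h2 : HasFDerivAt (fun w => fderiv ℝ Φ (u w))
      ((fderiv ℝ (fderiv ℝ Φ) (u z)).comp (fderiv ℝ u z)) z :=
    hd2.hasFDerivAt.comp z (hu.differentiableAt.restrictScalars ℝ).hasFDerivAt
  have hu' : AnalyticAt ℂ (deriv u) z := hu.deriv
  have h3 : ∀ a : ℂ, HasFDerivAt (fun w => a • deriv u w) (a • fderiv ℝ (deriv u) z) z :=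
    fun a => (hu'.differentiableAt.restrictScalars ℝ).hasFDerivAt.const_smul a
  have hR2 : ∀ a : ℂ, fderiv ℝ (deriv u) z a = a • deriv (deriv u) z := by
    intro a
    rw [hu'.differentiableAt.fderiv_restrictScalars ℝ]
    show fderiv ℂ (deriv u) z a = _
    rw [fderiv_eq_smul_deriv]
  have h4 : ∀ a : ℂ, fderiv ℝ (fun w => fderiv ℝ (fun w => Φ (u w)) w a) z a =
      fderiv ℝ (fderiv ℝ Φ) (u z) (a • deriv u z) (a • deriv u z) +
        fderiv ℝ Φ (u z) (a • (a • deriv (deriv u) z)) := by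
    intro a
    rw [(h1 a).fderiv_eq, (h2.clm_apply (h3 a)).fderiv]
    simp only [add_apply, ContinuousLinearMap.comp_apply, ContinuousLinearMap.flip_apply,
      smul_apply, hR hu, hR2]
    ring
  rw [ddb, h4, h4, quad_cHess hΦ]
  simp only [one_smul]
  have h5 : (I • I • deriv (deriv u) z) = -deriv (deriv u) z := by
    rw [smul_smul, I_mul_I, neg_one_smul]
  rw [h5, map_neg]
  ring

lemma ddb_add {φ ψ : ℂ → ℝ} {z : ℂ} (h : ContDiffAt ℝ 2 φ z) (h' : ContDiffAt ℝ 2 ψ z) :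
    ddb (fun w => φ w + ψ w) z = ddb φ z + ddb ψ z := by
  rw [ddb_eq (h.add h'), ddb_eq h, ddb_eq h']
  have h1 : (fderiv ℝ fun w => φ w + ψ w) =ᶠ[𝓝 z] fun w => fderiv ℝ φ w + fderiv ℝ ψ w := by
    filter_upwards [h.eventually (by simp), h'.eventually (by simp)] with w hw hw'
    exact fderiv_fun_add (hw.differentiableAt (by norm_num)) (hw'.differentiableAt (by norm_num))
  have d1 : DifferentiableAt ℝ (fderiv ℝ φ) z :=
    (h.fderiv_right (m := 1) (by norm_num)).differentiableAt (by norm_num)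
  have d2 : DifferentiableAt ℝ (fderiv ℝ ψ) z :=
    (h'.fderiv_right (m := 1) (by norm_num)).differentiableAt (by norm_num)
  rw [h1.fderiv_eq, fderiv_fun_add d1 d2]
  simp only [add_apply]
  ring

lemma ddb_congr {φ ψ : ℂ → ℝ} {z : ℂ} (h : φ =ᶠ[𝓝 z] ψ) : ddb φ z = ddb ψ z := by
  unfold ddb
  have h1 : ∀ v : ℂ, (fun w => fderiv ℝ φ w v) =ᶠ[𝓝 z] fun w => fderiv ℝ ψ w v := by
    intro v
    filter_upwards [h.eventuallyEq_nhds] with w hw
    rw [hw.fderiv_eq]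
  rw [(h1 1).fderiv_eq, (h1 I).fderiv_eq]

/-- `log |D|²` is harmonic -/
lemma ddb_log_norm_sq {D : ℂ → ℂ} {z : ℂ} (hD : AnalyticAt ℂ D z) (h0 : D z ≠ 0) :
    ddb (fun w => Real.log (‖D w‖ ^ 2)) z = 0 ∧
      ContDiffAt ℝ 2 (fun w => Real.log (‖D w‖ ^ 2)) z := by
  have hF : ContDiffAt ℂ ω (fun y : Cm 1 => y 0) (fun _ => D z) := by fun_prop
  have hu : AnalyticAt ℂ (fun w => (fun _ : Fin 1 => D w)) z := AnalyticAt.pi fun _ => hD
  have hΦ : ContDiffAt ℝ 2 (fun y : Cm 1 => Real.log (‖y 0‖ ^ 2)) (fun _ => D z) := by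
    have h1 : ContDiffAt ℝ 2 (fun y : Cm 1 => ‖y 0‖ ^ 2) (fun _ => D z) := by
      have h2 : ContDiffAt ℝ 2 (fun y : Cm 1 => y 0) (fun _ => D z) := by fun_prop
      exact h2.norm_sq ℝ
    exact h1.log (by positivity)
  have h1 := ddb_comp_holo (Φ := fun y : Cm 1 => Real.log (‖y 0‖ ^ 2)) hu hΦ
  have h2 := cHess_log_norm_sq hF h0
  constructor
  · rw [h1, h2]
    simp [quad]
  · have hD2 : ContDiffAt ℝ 2 D z := (hD.contDiffAt (n := 2)).restrict_scalars ℝ
    exact (hD2.norm_sq ℝ).log (by positivity)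

end Vale.Agent.P272.JN
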