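import Vale.Agent.P272.JN.Limit

/-!
# P272, block A15: the exact Jensen identity at radius `1`
-/

open scoped Manifold ContDiff ComplexOrder Topology ENNReal
open MeasureTheory Metric Set Filter Complex

noncomputable section

namespace Vale.Agent.P272.JN

open Vale.Agent.P272.K Vale.Agent.P272.GJ Vale.Agent.P272.HY

variable {n : ℕ} {X : Type*} [TopologicalSpace X] [ChartedSpace (Cm n) X]
  {f : ℂ → X} {δ t C : ℝ} {F : ℂ → Cm n → X} {z : ℂ} {e e' : Chart n X}
  {w g : Chart n X → Cm n → Matrix (Fin n) (Fin n) ℂ}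
  [IsManifold 𝓘(ℂ, Cm n) ω X]

lemma integrableOn_spd (hw : IsHermitian w) (hf : HolD n f) (hT : TE w 1 f ≠ ⊤) :
    IntegrableOn (fun z => Gr 1 z * BR.spd w f z) (ball 0 1) := by
  have hm : AEStronglyMeasurable (fun z => Gr 1 z * BR.spd w f z) (volume.restrict (ball 0 1)) :=
    ((measurable_Gr 1).aestronglyMeasurable).mul
      ((spd_cont hw hf).aestronglyMeasurable measurableSet_ball)
  refine (lintegral_ofReal_ne_top_iff_integrable hm ?_).1 hT
  filter_upwards [ae_restrict_mem measurableSet_ball] with z hz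
  exact mul_nonneg (Gr_nonneg hz) (BR.spd_nonneg hw f z)

/-- if `|θ| ≤ C |f'|²_w` and `T_w(f) < ∞`, then `∫_{|z|<ρ} G_ρ θ → ∫_D G θ` -/
lemma tendsto_integral (hw : IsHermitian w) (hf : HolD n f) (hT : TE w 1 f ≠ ⊤) {θ : ℂ → ℝ}
    (hθ : ContinuousOn θ (ball 0 1)) (hC : ∀ z ∈ ball (0 : ℂ) 1, |θ z| ≤ C * BR.spd w f z)
    {ρ : ℕ → ℝ} (hρ0 : ∀ k, 0 < ρ k) (hρ1 : ∀ k, ρ k < 1) (hρ : Tendsto ρ atTop (𝓝 1)) :
    IntegrableOn (fun z => Gr 1 z * θ z) (ball 0 1) ∧
    Tendsto (fun k => ∫ z in ball (0 : ℂ) (ρ k), Gr (ρ k) z * θ z) atTop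
      (𝓝 (∫ z in ball (0 : ℂ) 1, Gr 1 z * θ z)) := by
  have hi := (integrableOn_spd hw hf hT).const_mul C
  have hθm : AEStronglyMeasurable θ (volume.restrict (ball 0 1)) :=
    hθ.aestronglyMeasurable measurableSet_ball
  constructor
  · refine Integrable.mono' hi ((measurable_Gr 1).aestronglyMeasurable.mul hθm) ?_
    filter_upwards [ae_restrict_mem measurableSet_ball] with z hz
    rw [norm_mul, Real.norm_eq_abs, Real.norm_eq_abs, abs_of_nonneg (Gr_nonneg hz)]
    have := mul_le_mul_of_nonneg_left (hC z hz) (Gr_nonneg hz)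
    linarith
  · have e1 : ∀ k, ∫ z in ball (0 : ℂ) (ρ k), Gr (ρ k) z * θ z =
        ∫ z in ball (0 : ℂ) 1, (ball (0 : ℂ) (ρ k)).indicator (fun z => Gr (ρ k) z * θ z) z := by
      intro k
      rw [setIntegral_indicator measurableSet_ball,
        inter_eq_right.2 (ball_subset_ball (hρ1 k).le)]
    simp_rw [e1]
    refine tendsto_integral_of_dominated_convergence (fun z => C * (Gr 1 z * BR.spd w f z))
      (fun k => ?_) hi (fun k => ?_) ?_
    · exact ((measurable_Gr (ρ k)).aestronglyMeasurable.mul hθm).indicator measurableSet_ball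
    · filter_upwards [ae_restrict_mem measurableSet_ball] with z hz
      by_cases h : z ∈ ball (0 : ℂ) (ρ k)
      · rw [indicator_of_mem h, norm_mul, Real.norm_eq_abs, Real.norm_eq_abs,
          abs_of_nonneg (Gr_nonneg h)]
        have h1 := Gr_mono (hρ0 k) (hρ1 k).le z
        have h2 := hC z hz
        have h3 : 0 ≤ |θ z| := abs_nonneg _
        calc Gr (ρ k) z * |θ z| ≤ Gr 1 z * (C * BR.spd w f z) :=
              mul_le_mul h1 h2 h3 (Gr_nonneg hz)
          _ = _ := by ring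
      · rw [indicator_of_notMem h, norm_zero]
        have h2 := hC z hz
        have h3 := mul_nonneg (Gr_nonneg hz) ((abs_nonneg _).trans h2)
        linarith
    · filter_upwards [ae_restrict_mem measurableSet_ball] with z hz
      have h1 : Tendsto (fun k => Gr (ρ k) z * θ z) atTop (𝓝 (Gr 1 z * θ z)) :=
        Tendsto.mul_const _ ((continuousAt_Gr one_ne_zero z).tendsto.comp hρ)
      refine h1.congr' ?_
      have h3 : ∀ᶠ k in atTop, ‖z‖ < ρ k := by
        have : ‖z‖ < 1 := by simpa using hz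
        exact hρ.eventually (lt_mem_nhds this)
      filter_upwards [h3] with k hk
      rw [indicator_of_mem]
      simpa using hk

/-- **exact Jensen identity** -/
theorem jensen_eq (hw : IsHermitian w) (hg : IsHermitian g) (hF : HolTube f δ F)
    (hT : TE w 1 f ≠ ⊤) (hC : ∀ z ∈ ball (0 : ℂ) 1, |chiQ g f z| ≤ C * BR.spd w f z) :
    IntegrableOn (fun z => Gr 1 z * chiQ g f z) (ball 0 1) ∧
    Real.circleAverage (Lam g F) 0 1 = Lam g F 0 + ∫ z in ball (0 : ℂ) 1, Gr 1 z * chiQ g f z := by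
  obtain ⟨ρ, hρ0, -, hρ1, hρ⟩ := exists_radii (r := 0) one_pos
  obtain ⟨h0, h2⟩ := tendsto_integral hw (disc_hol hF) hT (chiQ_cont hg hF) hC hρ0 hρ1 hρ
  refine ⟨h0, ?_⟩
  have h1 := tendsto_circleAverage (Lam_cont hg hF) (fun k => (hρ0 k).le) (fun k => (hρ1 k).le) hρ
  refine tendsto_nhds_unique h1 ((tendsto_const_nhds.add h2).congr fun k => ?_)
  exact (jensen_r hg hF (hρ0 k) (hρ1 k)).symm

end Vale.Agent.P272.JN
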