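import Vale.Agent.P272.JN.Tube
import Vale.Agent.P272.PB.B13a
import Vale.Agent.P272.BR.Spd
import Vale.Agent.P272.GJ.Second
import Vale.Agent.P272.S2D.Iface

/-!
# P272, block A15: Jensen's inequality for `log det` of a metric in a holomorphic tube (B13, B13G, B13R)
-/

open scoped Manifold ContDiff ComplexOrder Topology ENNReal
open MeasureTheory Metric Set Filter Complex

noncomputable section

namespace Vale.Agent.P272.JN

open Vale.Agent.P272.K Vale.Agent.P272.GJ Vale.Agent.P272.HY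

/-! ### continuity of circle averages -/

lemma tendsto_circleAverage {φ : ℂ → ℝ} (hφ : ContinuousOn φ (closedBall 0 1)) {ρ : ℕ → ℝ}
    (h0 : ∀ k, 0 ≤ ρ k) (h1 : ∀ k, ρ k ≤ 1) (hρ : Tendsto ρ atTop (𝓝 1)) :
    Tendsto (fun k => Real.circleAverage φ 0 (ρ k)) atTop (𝓝 (Real.circleAverage φ 0 1)) := by
  simp_rw [circleAverage_eq_pi, smul_eq_mul]
  refine Tendsto.const_mul _ ?_
  obtain ⟨C, hC⟩ := (isCompact_closedBall (0 : ℂ) 1).exists_bound_of_continuousOn hφ
  have hpt : ∀ k θ, pt (ρ k) θ ∈ closedBall (0 : ℂ) 1 := fun k θ => pt_mem (h0 k) (h1 k) θ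
  refine intervalIntegral.tendsto_integral_filter_of_dominated_convergence (fun _ => C) ?_ ?_ ?_ ?_
  · refine Eventually.of_forall fun k => ?_
    have hc : Continuous fun θ => φ (pt (ρ k) θ) := by
      rw [← continuousOn_univ]
      refine hφ.comp ?_ fun θ _ => hpt k θ
      unfold pt; fun_prop
    exact hc.aestronglyMeasurable
  · refine Eventually.of_forall fun k => Eventually.of_forall fun θ _ => hC _ (hpt k θ)
  · exact intervalIntegrable_const
  · refine Eventually.of_forall fun θ _ => ?_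
    have h2 : Tendsto (fun k => pt (ρ k) θ) atTop (𝓝[closedBall 0 1] (pt 1 θ)) := by
      refine tendsto_nhdsWithin_iff.2 ⟨?_, Eventually.of_forall fun k => hpt k θ⟩
      have hc : Continuous fun r => pt r θ := by unfold pt; fun_prop
      exact (hc.tendsto 1).comp hρ
    exact (hφ _ (pt_mem zero_le_one le_rfl θ)).tendsto.comp h2

/-! ### linear algebra -/

section
variable {n : ℕ}

lemma quad_form (A B C : Matrix (Fin n) (Fin n) ℂ) (t : ℝ) (ξ : Cm n) :
    (quad (-A + B - (t : ℂ) • C) ξ).re = -(quad A ξ).re + (quad B ξ).re - t * (quad C ξ).re := by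
  have h : quad (-A + B - (t : ℂ) • C) ξ = -quad A ξ + quad B ξ - (t : ℂ) * quad C ξ := by
    unfold quad
    simp only [Matrix.sub_apply, Matrix.add_apply, Matrix.neg_apply, Matrix.smul_apply,
      smul_eq_mul, Finset.mul_sum, ← Finset.sum_neg_distrib, ← Finset.sum_add_distrib,
      ← Finset.sum_sub_distrib]
    refine Finset.sum_congr rfl fun i _ => Finset.sum_congr rfl fun j _ => ?_
    ring
  rw [h, Complex.sub_re, Complex.add_re, Complex.neg_re, Complex.re_ofReal_mul]

end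

variable {n : ℕ} {X : Type*} [TopologicalSpace X] [ChartedSpace (Cm n) X]
  {f : ℂ → X} {δ t : ℝ} {F : ℂ → Cm n → X} {z : ℂ} {e e' : Chart n X}
  {w g : Chart n X → Cm n → Matrix (Fin n) (Fin n) ℂ}

lemma chiQ_le (hR : S2D.RicGeT g w t) (f : ℂ → X) (z : ℂ) :
    chiQ g f z ≤ BR.spd g f z - t * BR.spd w f z := by
  have h1 := quad_nonneg (hR _ _ (BR.at_chartAt (n := n) (f z)))
    (vel f (chartAt (Cm n) (f z)) z)
  rw [quad_form] at h1
  unfold chiQ BR.spd
  unfold ld
  linarith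

lemma ricGeT_zero (hR : RicGe g) (w : Chart n X → Cm n → Matrix (Fin n) (Fin n) ℂ) :
    S2D.RicGeT g w 0 := by
  intro e x h
  have := hR e x h
  simpa using this

lemma disc_cont (hF : HolTube f δ F) : ContinuousOn f (closedBall 0 1) :=
  (PB.cont_fst hF).congr fun z hz => (hF.zero z hz).symm

lemma disc_hol (hF : HolTube f δ F) : HolD n f := by
  intro z hz
  refine ⟨(disc_cont hF).continuousAt (Filter.mem_of_superset (isOpen_ball.mem_nhds hz)
    ball_subset_closedBall), fun e he => (disc_analytic hF hz he).differentiableAt⟩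

/-- the real characteristic at radius `r` -/
def Tr (w : Chart n X → Cm n → Matrix (Fin n) (Fin n) ℂ) (f : ℂ → X) (r : ℝ) : ℝ :=
  ∫ z in ball (0 : ℂ) r, Gr r z * BR.spd w f z

variable [IsManifold 𝓘(ℂ, Cm n) ω X]

lemma spd_cont (hw : IsHermitian w) (hf : HolD n f) : ContinuousOn (BR.spd w f) (ball 0 1) :=
  BR.HolOn.continuousOn_spd isOpen_ball hw hf

lemma TE_toReal (hw : IsHermitian w) (hf : HolD n f) {r : ℝ} (hr : 0 < r) (hr1 : r < 1) :
    (TE w r f).toReal = Tr w f r := by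
  have hc := (spd_cont hw hf).mono (closedBall_subset_ball hr1)
  have h1 := ofReal_integral_Gr hr hc fun z _ => BR.spd_nonneg hw f z
  unfold TE Tr
  rw [← h1, ENNReal.toReal_ofReal]
  exact setIntegral_nonneg measurableSet_ball fun z hz =>
    mul_nonneg (Gr_nonneg hz) (BR.spd_nonneg hw f z)

lemma Tr_nonneg (hw : IsHermitian w) {r : ℝ} : 0 ≤ Tr w f r :=
  setIntegral_nonneg measurableSet_ball fun z hz =>
    mul_nonneg (Gr_nonneg hz) (BR.spd_nonneg hw f z)

lemma tendsto_Tr' (hw : IsHermitian w) (hf : HolD n f) (hT : TE w 1 f ≠ ⊤) {ρ : ℕ → ℝ}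
    (hρ0 : ∀ k, 0 < ρ k) (hρ1 : ∀ k, ρ k < 1) (hρ : Tendsto ρ atTop (𝓝 1)) :
    Tendsto (fun k => Tr w f (ρ k)) atTop (𝓝 (TE w 1 f).toReal) := by
  have h1 := tendsto_Tr (spd_cont hw hf) (fun z _ => BR.spd_nonneg hw f z) hρ0 hρ1 hρ
  have h2 := (ENNReal.tendsto_toReal hT).comp h1
  refine h2.congr fun k => ?_
  simp only [Function.comp_apply]
  rw [ENNReal.toReal_ofReal]
  · rfl
  · exact Tr_nonneg hw

lemma Lam_cont (hw : IsHermitian w) (hF : HolTube f δ F) :
    ContinuousOn (Lam w F) (closedBall 0 1) := by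
  intro z hz
  have h1 : ContinuousWithinAt (fun z => (pbM w F z).det.re) (closedBall 0 1) z := by
    have h2 : ContinuousWithinAt (pbM w F) (closedBall 0 1) z := PB.pbM_cont hw hF z hz
    have h3 : Continuous fun M : Matrix (Fin n) (Fin n) ℂ => M.det.re :=
      Complex.continuous_re.comp (continuous_id.matrix_det)
    exact h3.continuousAt.comp_continuousWithinAt h2
  exact h1.log (det_pbM_pos hw hF hz).ne'

lemma chiQ_cont (hw : IsHermitian w) (hF : HolTube f δ F) : ContinuousOn (chiQ w f) (ball 0 1) := by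
  intro z hz
  obtain ⟨r, hr0, hr1⟩ : ∃ r, ‖z‖ < r ∧ r < 1 := exists_between (by simpa using hz)
  have h1 : ContinuousOn (ddb (Lam w F)) (closedBall 0 r) :=
    contOn_ddb fun y hy => Lam_contDiffAt hw hF (closedBall_subset_ball hr1 hy)
  have h2 : ContinuousOn (chiQ w f) (closedBall 0 r) :=
    h1.congr fun y hy => (ddb_Lam hw hF (closedBall_subset_ball hr1 hy)).symm
  have h3 : closedBall (0 : ℂ) r ∈ 𝓝 z :=
    Filter.mem_of_superset (isOpen_ball.mem_nhds (show z ∈ ball (0 : ℂ) r by simpa using hr0))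
      ball_subset_closedBall
  exact (h2.continuousAt h3).continuousWithinAt

/-- the Jensen inequality at the centre, radius `R < 1` -/
lemma le_R (hg : IsHermitian g) (hw : IsHermitian w) (hR : S2D.RicGeT g w t) (hF : HolTube f δ F)
    {R : ℝ} (hR0 : 0 < R) (hR1 : R < 1) :
    Real.circleAverage (Lam g F) 0 R ≤ Lam g F 0 + (Tr g f R - t * Tr w f R) := by
  rw [jensen_r hg hF hR0 hR1]
  have hf := disc_hol hF
  have hsub := closedBall_subset_ball (x := (0 : ℂ)) hR1
  have i1 := integrableOn_Gr_mul hR0 ((spd_cont hg hf).mono hsub)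
  have i2 := integrableOn_Gr_mul hR0 ((spd_cont hw hf).mono hsub)
  have i3 := integrableOn_Gr_mul hR0 ((chiQ_cont hg hF).mono hsub)
  have h1 : Tr g f R - t * Tr w f R =
      ∫ z in ball (0 : ℂ) R, (Gr R z * BR.spd g f z - t * (Gr R z * BR.spd w f z)) := by
    rw [integral_sub i1 (i2.const_mul t), integral_const_mul]
    rfl
  have h2 : ∫ z in ball (0 : ℂ) R, Gr R z * chiQ g f z ≤
      ∫ z in ball (0 : ℂ) R, (Gr R z * BR.spd g f z - t * (Gr R z * BR.spd w f z)) := by
    refine setIntegral_mono_on i3 (i1.sub (i2.const_mul t)) measurableSet_ball fun z hz => ?_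
    have h3 := mul_le_mul_of_nonneg_left (chiQ_le hR f z) (Gr_nonneg hz)
    linarith
  rw [h1]
  linarith

/-- the Jensen inequality between two circles, radii `r < R < 1` -/
lemma le_rR (hg : IsHermitian g) (hw : IsHermitian w) (hR : S2D.RicGeT g w t)
    (hF : HolTube f δ F) {r R : ℝ} (hr0 : 0 < r) (hrR : r ≤ R) (hR1 : R < 1) :
    Real.circleAverage (Lam g F) 0 R ≤ Real.circleAverage (Lam g F) 0 r +
      ((Tr g f R - Tr g f r) - t * (Tr w f R - Tr w f r)) := by
  have hR0 : 0 < R := hr0.trans_le hrR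
  have hr1 : r < 1 := hrR.trans_lt hR1
  rw [jensen_r hg hF hR0 hR1, jensen_r hg hF hr0 hr1]
  have hf := disc_hol hF
  have hbb : ball (0 : ℂ) r ⊆ ball 0 R := ball_subset_ball hrR
  -- the kernel
  set k : ℂ → ℝ := fun z => Gr R z - (ball (0 : ℂ) r).indicator (Gr r) z with hk
  have hk0 : ∀ z ∈ ball (0 : ℂ) R, 0 ≤ k z := by
    intro z hz
    by_cases h : z ∈ ball (0 : ℂ) r
    · simp only [hk, indicator_of_mem h]
      linarith [Gr_mono hr0 hrR z]
    · simp only [hk, indicator_of_notMem h]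
      linarith [Gr_nonneg hz]
  have key : ∀ θ : ℂ → ℝ, ContinuousOn θ (ball 0 1) →
      IntegrableOn (fun z => k z * θ z) (ball 0 R) ∧
      (∫ z in ball (0 : ℂ) R, Gr R z * θ z) - ∫ z in ball (0 : ℂ) r, Gr r z * θ z =
        ∫ z in ball (0 : ℂ) R, k z * θ z := by
    intro θ hθ
    have i1 := integrableOn_Gr_mul hR0 (hθ.mono (closedBall_subset_ball hR1))
    have i2 := integrableOn_Gr_mul hr0 (hθ.mono (closedBall_subset_ball hr1))
    have e1 : ∀ z, k z * θ z = Gr R z * θ z - (ball (0 : ℂ) r).indicator (fun z => Gr r z * θ z) z := by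
      intro z
      by_cases h : z ∈ ball (0 : ℂ) r
      · simp only [hk, indicator_of_mem h]; ring
      · simp only [hk, indicator_of_notMem h]; ring
    have i3 : IntegrableOn ((ball (0 : ℂ) r).indicator (fun z => Gr r z * θ z)) (ball 0 R) := by
      rw [IntegrableOn, integrable_indicator_iff measurableSet_ball]
      exact i2.mono_measure Measure.restrict_le_self |>.mono_set (le_refl _)
    constructor
    · simp_rw [e1]
      exact i1.sub i3
    · simp_rw [e1]
      rw [integral_sub i1 i3, setIntegral_indicator measurableSet_ball, inter_eq_right.2 hbb]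
  obtain ⟨j1, e1⟩ := key _ (spd_cont hg hf)
  obtain ⟨j2, e2⟩ := key _ (spd_cont hw hf)
  obtain ⟨j3, e3⟩ := key _ (chiQ_cont hg hF)
  have h1 : (Tr g f R - Tr g f r) - t * (Tr w f R - Tr w f r) =
      ∫ z in ball (0 : ℂ) R, (k z * BR.spd g f z - t * (k z * BR.spd w f z)) := by
    rw [integral_sub j1 (j2.const_mul t), integral_const_mul, ← e1, ← e2]
    rfl
  have h2 : ∫ z in ball (0 : ℂ) R, k z * chiQ g f z ≤
      ∫ z in ball (0 : ℂ) R, (k z * BR.spd g f z - t * (k z * BR.spd w f z)) := by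
    refine setIntegral_mono_on j3 (j1.sub (j2.const_mul t)) measurableSet_ball fun z hz => ?_
    have h3 := mul_le_mul_of_nonneg_left (chiQ_le hR f z) (hk0 z hz)
    linarith
  rw [h1]
  linarith

lemma exists_radii {r : ℝ} (hr : r < 1) : ∃ ρ : ℕ → ℝ, (∀ k, 0 < ρ k) ∧ (∀ k, r ≤ ρ k) ∧
    (∀ k, ρ k < 1) ∧ Tendsto ρ atTop (𝓝 1) := by
  set s : ℝ := max r (1 / 2) with hs
  have hs1 : s < 1 := max_lt hr (by norm_num)
  have hs0 : 0 < s := lt_of_lt_of_le (by norm_num) (le_max_right r (1 / 2))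
  refine ⟨fun k => 1 - (1 - s) / (k + 1), fun k => ?_, fun k => ?_, fun k => ?_, ?_⟩
  · have : (1 - s) / ((k : ℝ) + 1) ≤ 1 - s :=
      div_le_self (by linarith) (by linarith [k.cast_nonneg (α := ℝ)])
    linarith
  · have : (1 - s) / ((k : ℝ) + 1) ≤ 1 - s :=
      div_le_self (by linarith) (by linarith [k.cast_nonneg (α := ℝ)])
    have := le_max_left r (1 / 2)
    linarith
  · have : 0 < (1 - s) / ((k : ℝ) + 1) := div_pos (by linarith) (by positivity)
    linarith
  · have h1 : Tendsto (fun k : ℕ => (1 - s) / ((k : ℝ) + 1)) atTop (𝓝 0) := by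
      have := (tendsto_one_div_add_atTop_nhds_zero_nat (𝕜 := ℝ)).const_mul (1 - s)
      simpa [div_eq_mul_inv] using this
    simpa using tendsto_const_nhds.sub h1

/-- **Jensen at the centre** -/
theorem jensen_le (hg : IsHermitian g) (hw : IsHermitian w) (hR : S2D.RicGeT g w t)
    (hF : HolTube f δ F) (hTg : TE g 1 f ≠ ⊤) (hTw : TE w 1 f ≠ ⊤) :
    Real.circleAverage (Lam g F) 0 1 ≤
      Lam g F 0 + ((TE g 1 f).toReal - t * (TE w 1 f).toReal) := by
  obtain ⟨ρ, hρ0, -, hρ1, hρ⟩ := exists_radii (r := 0) one_pos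
  have h1 := tendsto_circleAverage (Lam_cont hg hF) (fun k => (hρ0 k).le) (fun k => (hρ1 k).le) hρ
  have h2 : Tendsto (fun k => Lam g F 0 + (Tr g f (ρ k) - t * Tr w f (ρ k))) atTop
      (𝓝 (Lam g F 0 + ((TE g 1 f).toReal - t * (TE w 1 f).toReal))) :=
    tendsto_const_nhds.add ((tendsto_Tr' hg (disc_hol hF) hTg hρ0 hρ1 hρ).sub
      ((tendsto_Tr' hw (disc_hol hF) hTw hρ0 hρ1 hρ).const_mul t))
  exact le_of_tendsto_of_tendsto' h1 h2 fun k => le_R hg hw hR hF (hρ0 k) (hρ1 k)

/-- **Jensen between two circles** -/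
theorem jensen_two (hg : IsHermitian g) (hw : IsHermitian w) (hR : S2D.RicGeT g w t)
    (hF : HolTube f δ F) (hTg : TE g 1 f ≠ ⊤) (hTw : TE w 1 f ≠ ⊤) {r : ℝ} (hr0 : 0 < r)
    (hr1 : r < 1) :
    Real.circleAverage (Lam g F) 0 1 ≤ Real.circleAverage (Lam g F) 0 r +
      (((TE g 1 f).toReal - (TE g r f).toReal) -
        t * ((TE w 1 f).toReal - (TE w r f).toReal)) := by
  have hf := disc_hol hF
  rw [TE_toReal hg hf hr0 hr1, TE_toReal hw hf hr0 hr1]
  obtain ⟨ρ, hρ0, hρr, hρ1, hρ⟩ := exists_radii hr1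
  have h1 := tendsto_circleAverage (Lam_cont hg hF) (fun k => (hρ0 k).le) (fun k => (hρ1 k).le) hρ
  have h2 : Tendsto (fun k => Real.circleAverage (Lam g F) 0 r +
      ((Tr g f (ρ k) - Tr g f r) - t * (Tr w f (ρ k) - Tr w f r))) atTop
      (𝓝 (Real.circleAverage (Lam g F) 0 r + (((TE g 1 f).toReal - Tr g f r) -
        t * ((TE w 1 f).toReal - Tr w f r)))) :=
    tendsto_const_nhds.add (((tendsto_Tr' hg hf hTg hρ0 hρ1 hρ).sub tendsto_const_nhds).sub
      (((tendsto_Tr' hw hf hTw hρ0 hρ1 hρ).sub tendsto_const_nhds).const_mul t))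
  exact le_of_tendsto_of_tendsto' h1 h2 fun k => le_rR hg hw hR hF hr0 (hρr k) (hρ1 k)

end Vale.Agent.P272.JN

namespace Vale.Agent.P272

open Vale.Agent.P272.K Vale.Agent.P272.HY

variable (n : ℕ) (X : Type) [TopologicalSpace X] [ChartedSpace (Cm n) X]
  [IsManifold 𝓘(ℂ, Cm n) ω X]

/-- **block A15** -/
theorem JN.b13 : HY.B13 n X := by
  intro w hw hR δ f F hF hT
  have h := JN.jensen_le hw hw (JN.ricGeT_zero hR w) hF hT hT
  have h2 : Real.circleAverage (JN.Lam w F) 0 1 ≤ JN.Lam w F 0 + (TE w 1 f).toReal := by linarith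
  exact h2

theorem JN.b13g : S2D.B13G n X := by
  intro g w hg hw t _ hR δ f F hF hTg hTw
  have h := JN.jensen_le hg hw hR hF hTg hTw
  have h2 : Real.circleAverage (JN.Lam g F) 0 1 ≤
      JN.Lam g F 0 + (TE g 1 f).toReal - t * (TE w 1 f).toReal := by linarith
  exact h2

/-- Jensen between two circles (B13R) -/
theorem JN.b13r (w : Chart n X → Cm n → Matrix (Fin n) (Fin n) ℂ) (hw : IsHermitian w)
    (hR : RicGe w) (δ : ℝ) (f : ℂ → X) (F : ℂ → Cm n → X) (hF : HolTube f δ F)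
    (hT : TE w 1 f ≠ ⊤) (r : ℝ) (hr0 : 0 < r) (hr1 : r < 1) :
    Real.circleAverage (fun z => Real.log (pbM w F z).det.re) 0 1 ≤
      Real.circleAverage (fun z => Real.log (pbM w F z).det.re) 0 r +
        (TE w 1 f).toReal - (TE w r f).toReal := by
  have h := JN.jensen_two hw hw (JN.ricGeT_zero hR w) hF hT hT hr0 hr1
  have h2 : Real.circleAverage (JN.Lam w F) 0 1 ≤ Real.circleAverage (JN.Lam w F) 0 r +
      (TE w 1 f).toReal - (TE w r f).toReal := by linarith
  exact h2

end Vale.Agent.P272
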