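import Vale.Agent.P272.JN.Chain
import Vale.Agent.P268.Hol

/-!
# P272, block A15: the determinant of the matrix of a metric in a holomorphic tube
-/

open scoped Manifold ContDiff ComplexOrder Topology
open Metric Set Filter Complex

noncomputable section

namespace Vale.Agent.P272.JN

open Vale.Agent.P272.K Vale.Agent.P272.GJ Vale.Agent.P272.HY

variable {n : ℕ} {X : Type*} [TopologicalSpace X] [ChartedSpace (Cm n) X]
  {f : ℂ → X} {δ : ℝ} {F : ℂ → Cm n → X} {z : ℂ} {e e' : Chart n X}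
  {w g : Chart n X → Cm n → Matrix (Fin n) (Fin n) ℂ}

lemma zero_mem (hF : HolTube f δ F) : (0 : Cm n) ∈ ball (0 : Cm n) δ := mem_ball_self hF.pos

/-- the open set where the tube is read in the chart `e` -/
def dom (F : ℂ → Cm n → X) (δ : ℝ) (e : Chart n X) : Set (ℂ × Cm n) :=
  (ball 0 1 ×ˢ ball 0 δ) ∩ (fun p : ℂ × Cm n => F p.1 p.2) ⁻¹' e.source

lemma isOpen_dom (hF : HolTube f δ F) (e : Chart n X) : IsOpen (dom F δ e) := by
  refine ContinuousOn.isOpen_inter_preimage ?_ (isOpen_ball.prod isOpen_ball) e.open_source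
  exact hF.cont.mono (prod_mono ball_subset_closedBall le_rfl)

lemma diffOn_dom (hF : HolTube f δ F) (he : e ∈ atlas (Cm n) X) :
    DifferentiableOn ℂ (fun p : ℂ × Cm n => e (F p.1 p.2)) (dom F δ e) := by
  rintro ⟨z, ζ⟩ ⟨⟨hz, hζ⟩, hs⟩
  exact (hF.holo z hz ζ hζ e ⟨he, hs⟩).differentiableWithinAt

lemma tj_eq (hF : HolTube f δ F) (he : e ∈ atlas (Cm n) X) {ζ : Cm n}
    (hp : (z, ζ) ∈ dom F δ e) (i j : Fin n) :
    tj F e z ζ i j = fderiv ℂ (fun p : ℂ × Cm n => e (F p.1 p.2)) (z, ζ) (0, Pi.single j 1) i := by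
  have h1 : DifferentiableAt ℂ (fun p : ℂ × Cm n => e (F p.1 p.2)) (z, ζ) :=
    (diffOn_dom hF he).differentiableAt ((isOpen_dom hF e).mem_nhds hp)
  have h2 : HasFDerivAt (fun ζ' : Cm n => (z, ζ')) (ContinuousLinearMap.inr ℂ ℂ (Cm n)) ζ :=
    hasFDerivAt_prodMk_right z ζ
  have h3 := h1.hasFDerivAt.comp ζ h2
  have h4 : fderiv ℂ (fun ζ' => e (F z ζ')) ζ =
      (fderiv ℂ (fun p : ℂ × Cm n => e (F p.1 p.2)) (z, ζ)).comp
        (ContinuousLinearMap.inr ℂ ℂ (Cm n)) := h3.fderiv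
  unfold tj
  rw [Matrix.of_apply, h4]
  simp

/-- the entries of `tj` are holomorphic -/
lemma tj_diff (hF : HolTube f δ F) (he : e ∈ atlas (Cm n) X) (i j : Fin n) :
    DifferentiableOn ℂ (fun p : ℂ × Cm n => tj F e p.1 p.2 i j) (dom F δ e) := by
  have h1 := P268.differentiableOn_fderiv_apply (isOpen_dom hF e) (diffOn_dom hF he)
    (0, Pi.single j 1)
  have h2 : DifferentiableOn ℂ (fun p : ℂ × Cm n =>
      fderiv ℂ (fun p : ℂ × Cm n => e (F p.1 p.2)) p (0, Pi.single j 1) i) (dom F δ e) :=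
    fun p hp => differentiableWithinAt_pi.1 (h1 p hp) i
  exact h2.congr fun p hp => tj_eq hF he hp i j

lemma mem_dom (hF : HolTube f δ F) (hz : z ∈ ball (0 : ℂ) 1) (he : At e (f z)) :
    (z, (0 : Cm n)) ∈ dom F δ e := by
  refine ⟨⟨hz, zero_mem hF⟩, ?_⟩
  show F z 0 ∈ e.source
  rw [hF.zero z (ball_subset_closedBall hz)]
  exact he.2

lemma eventually_mem_dom (hF : HolTube f δ F) (hz : z ∈ ball (0 : ℂ) 1) (he : At e (f z)) :
    ∀ᶠ y in 𝓝 z, (y, (0 : Cm n)) ∈ dom F δ e := by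
  have h : Continuous fun y : ℂ => (y, (0 : Cm n)) := by fun_prop
  exact h.continuousAt.eventually ((isOpen_dom hF e).mem_nhds (mem_dom hF hz he))

lemma at_of_mem_dom (hF : HolTube f δ F) (he : e ∈ atlas (Cm n) X) (h : (z, (0 : Cm n)) ∈ dom F δ e) :
    z ∈ ball (0 : ℂ) 1 ∧ At e (f z) := by
  refine ⟨h.1.1, he, ?_⟩
  rw [← hF.zero z (ball_subset_closedBall h.1.1)]
  exact h.2

/-- the entries of `tj` at `ζ = 0` are analytic in `z` -/
lemma tj_analytic (hF : HolTube f δ F) (hz : z ∈ ball (0 : ℂ) 1) (he : At e (f z))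
    (i j : Fin n) : AnalyticAt ℂ (fun y => tj F e y 0 i j) z := by
  have hev := eventually_mem_dom hF hz he
  obtain ⟨U, hU, hUo, hzU⟩ := _root_.eventually_nhds_iff.1 hev
  have h2 : DifferentiableOn ℂ (fun y => tj F e y 0 i j) U :=
    (tj_diff hF he.1 i j).comp (f := fun y : ℂ => (y, (0 : Cm n))) (by fun_prop) hU
  exact h2.analyticAt (hUo.mem_nhds hzU)

lemma det_analytic {m : ℕ} {M : ℂ → Matrix (Fin m) (Fin m) ℂ}
    (h : ∀ i j, AnalyticAt ℂ (fun y => M y i j) z) : AnalyticAt ℂ (fun y => (M y).det) z := by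
  simp only [Matrix.det_apply]
  refine Finset.analyticAt_fun_sum _ fun σ _ => ?_
  have h1 : AnalyticAt ℂ (fun y => ∏ i, M y (σ i) i) z :=
    Finset.analyticAt_fun_prod _ fun i _ => h _ _
  rcases Int.units_eq_one_or (Equiv.Perm.sign σ) with h2 | h2
  · simpa [h2] using h1
  · have h3 : AnalyticAt ℂ (fun y => -∏ i, M y (σ i) i) z := h1.neg
    simpa [h2] using h3

/-- the disc in a chart is analytic -/
lemma disc_analytic (hF : HolTube f δ F) (hz : z ∈ ball (0 : ℂ) 1) (he : At e (f z)) :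
    AnalyticAt ℂ (fun y => e (f y)) z := by
  have hev := eventually_mem_dom hF hz he
  obtain ⟨U, hU, hUo, hzU⟩ := _root_.eventually_nhds_iff.1 hev
  have h2 : DifferentiableOn ℂ (fun y => e (F y 0)) U :=
    (diffOn_dom hF he.1).comp (f := fun y : ℂ => (y, (0 : Cm n))) (by fun_prop) hU
  refine (h2.analyticAt (hUo.mem_nhds hzU)).congr ?_
  filter_upwards [hev] with y hy
  rw [hF.zero y (ball_subset_closedBall hy.1.1)]

variable [IsManifold 𝓘(ℂ, Cm n) ω X]

lemma tj_change (hF : HolTube f δ F) (hz : z ∈ closedBall (0 : ℂ) 1) (he : At e (f z))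
    (he' : At e' (f z)) : tj F e' z 0 = jacM e e' (f z) * tj F e z 0 := by
  have h0 := hF.zero z hz
  have hτ := transition_differentiableAt he he'
  have hd : DifferentiableAt ℂ (fun ζ' : Cm n => e (F z ζ')) 0 :=
    hF.holz z hz 0 (zero_mem hF) e (by rw [h0]; exact he)
  have hcont : ContinuousAt (fun ζ' : Cm n => F z ζ') 0 := by
    have h1 : ContinuousWithinAt (fun p : ℂ × Cm n => F p.1 p.2) (closedBall 0 1 ×ˢ ball 0 δ)
      (z, 0) := hF.cont _ ⟨hz, zero_mem hF⟩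
    have h2 : ContinuousWithinAt (fun ζ' : Cm n => F z ζ') (ball 0 δ) 0 :=
      ContinuousWithinAt.comp (t := closedBall 0 1 ×ˢ ball 0 δ)
        (g := fun p : ℂ × Cm n => F p.1 p.2) (f := fun ζ' : Cm n => (z, ζ')) h1
        (by fun_prop) fun ζ' hζ' => ⟨hz, hζ'⟩
    exact h2.continuousAt (ball_mem_nhds _ hF.pos)
  have hev : ∀ᶠ ζ' in 𝓝 (0 : Cm n), F z ζ' ∈ e.source :=
    hcont.eventually (e.open_source.mem_nhds (by show F z 0 ∈ e.source; rw [h0]; exact he.2))
  have hτ' : DifferentiableAt ℂ (fun y => e' (e.symm y)) (e (F z 0)) := by rw [h0]; exact hτ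
  have h1 : HasFDerivAt (fun ζ' => (fun y => e' (e.symm y)) (e (F z ζ')))
      ((fderiv ℂ (fun y => e' (e.symm y)) (e (F z 0))).comp
        (fderiv ℂ (fun ζ' : Cm n => e (F z ζ')) 0)) 0 :=
    HasFDerivAt.comp (g := fun y => e' (e.symm y)) 0 hτ'.hasFDerivAt hd.hasFDerivAt
  have h2 : (fun ζ' => e' (F z ζ')) =ᶠ[𝓝 0] fun ζ' => (fun y => e' (e.symm y)) (e (F z ζ')) := by
    filter_upwards [hev] with ζ' hζ'
    simp only [e.left_inv hζ']
  have h3 := (h1.congr_of_eventuallyEq h2).fderiv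
  ext i j
  unfold tj
  rw [Matrix.of_apply, h3, ContinuousLinearMap.comp_apply, Matrix.mul_apply, h0, jmat_mulVec hτ]
  rfl

/-- the matrix `pbM` can be computed in any chart -/
lemma pbM_eq (hw : IsHermitian w) (hF : HolTube f δ F) (hz : z ∈ closedBall (0 : ℂ) 1)
    (he : At e (f z)) :
    pbM w F z = (tj F e z 0).transpose * w e (e (f z)) * (tj F e z 0).map (starRingEnd ℂ) := by
  have h0 := hF.zero z hz
  have he' := BR.at_chartAt (n := n) (f z)
  unfold pbM
  rw [h0, hw.change e (chartAt (Cm n) (f z)) (f z) he he', tj_change hF hz he he',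
    Matrix.transpose_mul, Matrix.map_mul]
  simp only [Matrix.mul_assoc]

lemma det_map_conj {m : ℕ} (A : Matrix (Fin m) (Fin m) ℂ) :
    (A.map (starRingEnd ℂ)).det = (starRingEnd ℂ) A.det :=
  ((starRingEnd ℂ).map_det A).symm

lemma det_re_pos {m : ℕ} {A : Matrix (Fin m) (Fin m) ℂ} (hA : A.PosDef) : 0 < A.det.re :=
  (Complex.pos_iff.1 hA.det_pos).1

lemma det_im {m : ℕ} {A : Matrix (Fin m) (Fin m) ℂ} (hA : A.PosDef) : A.det.im = 0 :=
  (Complex.pos_iff.1 hA.det_pos).2.symm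

lemma det_pbM (hw : IsHermitian w) (hF : HolTube f δ F) (hz : z ∈ closedBall (0 : ℂ) 1)
    (he : At e (f z)) :
    (pbM w F z).det.re = ‖(tj F e z 0).det‖ ^ 2 * (w e (e (f z))).det.re := by
  rw [pbM_eq hw hF hz he, Matrix.det_mul, Matrix.det_mul, Matrix.det_transpose, det_map_conj]
  have h1 : (tj F e z 0).det * (w e (e (f z))).det * (starRingEnd ℂ) (tj F e z 0).det =
      ((‖(tj F e z 0).det‖ ^ 2 : ℝ) : ℂ) * (w e (e (f z))).det := by
    rw [mul_right_comm, Complex.mul_conj, Complex.normSq_eq_norm_sq]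
  rw [h1, Complex.re_ofReal_mul]

omit [IsManifold 𝓘(ℂ, Cm n) ω X] in
lemma tj_det_ne (hF : HolTube f δ F) (hz : z ∈ closedBall (0 : ℂ) 1) (he : At e (f z)) :
    (tj F e z 0).det ≠ 0 := hF.inv z hz e he

lemma det_pbM_pos (hw : IsHermitian w) (hF : HolTube f δ F) (hz : z ∈ closedBall (0 : ℂ) 1) :
    0 < (pbM w F z).det.re := by
  have he := BR.at_chartAt (n := n) (f z)
  rw [det_pbM hw hF hz he]
  have := det_re_pos (hw.posDef _ _ he)
  have h2 : 0 < ‖(tj F (chartAt (Cm n) (f z)) z 0).det‖ := norm_pos_iff.2 (tj_det_ne hF hz he)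
  positivity

/-- the log of the determinant of a metric, in a chart -/
def ld (w : Chart n X → Cm n → Matrix (Fin n) (Fin n) ℂ) (e : Chart n X) (y : Cm n) : ℝ :=
  Real.log (w e y).det.re

/-- `Λ(z) = log det (pbM w F z)` -/
def Lam (w : Chart n X → Cm n → Matrix (Fin n) (Fin n) ℂ) (F : ℂ → Cm n → X) (z : ℂ) : ℝ :=
  Real.log (pbM w F z).det.re

lemma Lam_eq (hw : IsHermitian w) (hF : HolTube f δ F) (hz : z ∈ closedBall (0 : ℂ) 1)
    (he : At e (f z)) :
    Lam w F z = Real.log (‖(tj F e z 0).det‖ ^ 2) + ld w e (e (f z)) := by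
  unfold Lam ld
  rw [det_pbM hw hF hz he, Real.log_mul]
  · exact pow_ne_zero 2 (norm_ne_zero_iff.2 (tj_det_ne hF hz he))
  · exact (det_re_pos (hw.posDef _ _ he)).ne'

omit [IsManifold 𝓘(ℂ, Cm n) ω X] in
lemma ld_contDiffAt (hw : IsHermitian w) {x : X} (he : At e x) : ContDiffAt ℝ ∞ (ld w e) (e x) := by
  have h1 : ContDiffAt ℝ ∞ (fun y => (w e y).det) (e x) := by
    simp only [Matrix.det_apply]
    refine ContDiffAt.sum fun σ _ => ?_
    have h2 : ContDiffAt ℝ ∞ (fun y => ∏ i, w e y (σ i) i) (e x) :=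
      contDiffAt_prod fun i _ => hw.smooth e x he _ _
    rcases Int.units_eq_one_or (Equiv.Perm.sign σ) with h | h
    · simpa [h] using h2
    · simpa [h] using h2.neg
  have h3 : ContDiffAt ℝ ∞ (fun y => (w e y).det.re) (e x) :=
    Complex.reCLM.contDiff.contDiffAt.comp (e x) h1
  exact h3.log (det_re_pos (hw.posDef _ _ he)).ne'

/-- **local form**: `Λ` is of class `C²` and `∂∂̄Λ = f^*(i∂∂̄ log det w)` -/
theorem Lam_local (hw : IsHermitian w) (hF : HolTube f δ F) (hz : z ∈ ball (0 : ℂ) 1)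
    (he : At e (f z)) : ContDiffAt ℝ 2 (Lam w F) z ∧
      ddb (Lam w F) z = (quad (cHess (ld w e) (e (f z))) (vel f e z)).re := by
  have hev := eventually_mem_dom hF hz he
  have h1 : Lam w F =ᶠ[𝓝 z] fun y => Real.log (‖(tj F e y 0).det‖ ^ 2) + ld w e (e (f y)) := by
    filter_upwards [hev] with y hy
    obtain ⟨hy1, hy2⟩ := at_of_mem_dom hF he.1 hy
    exact Lam_eq hw hF (ball_subset_closedBall hy1) hy2
  have hD : AnalyticAt ℂ (fun y => (tj F e y 0).det) z :=
    det_analytic fun i j => tj_analytic hF hz he i j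
  have hu := disc_analytic hF hz he
  have hD0 := tj_det_ne hF (ball_subset_closedBall hz) he
  obtain ⟨h2, h3⟩ := ddb_log_norm_sq hD hD0
  have hld : ContDiffAt ℝ 2 (ld w e) (e (f z)) := (ld_contDiffAt hw he).of_le (by norm_cast)
  have h4 : ContDiffAt ℝ 2 (fun y => ld w e (e (f y))) z := by
    have hu2 : ContDiffAt ℝ 2 (fun y => e (f y)) z := (hu.contDiffAt (n := 2)).restrict_scalars ℝ
    exact ContDiffAt.comp (g := ld w e) z hld hu2
  refine ⟨(h3.add h4).congr_of_eventuallyEq h1, ?_⟩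
  rw [ddb_congr h1, ddb_add h3 h4, h2, zero_add]
  exact ddb_comp_holo (Φ := ld w e) hu hld

/-- the pull-back of `i∂∂̄ log det w` by the disc -/
def chiQ (w : Chart n X → Cm n → Matrix (Fin n) (Fin n) ℂ) (f : ℂ → X) (z : ℂ) : ℝ :=
  (quad (cHess (ld w (chartAt (Cm n) (f z))) (chartAt (Cm n) (f z) (f z)))
    (vel f (chartAt (Cm n) (f z)) z)).re

lemma ddb_Lam (hw : IsHermitian w) (hF : HolTube f δ F) (hz : z ∈ ball (0 : ℂ) 1) :
    ddb (Lam w F) z = chiQ w f z :=
  (Lam_local hw hF hz (BR.at_chartAt (n := n) (f z))).2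

lemma Lam_contDiffAt (hw : IsHermitian w) (hF : HolTube f δ F) (hz : z ∈ ball (0 : ℂ) 1) :
    ContDiffAt ℝ 2 (Lam w F) z :=
  (Lam_local hw hF hz (BR.at_chartAt (n := n) (f z))).1

/-- **Jensen at radius `r < 1`**, for any Hermitian metric. -/
theorem jensen_r (hw : IsHermitian w) (hF : HolTube f δ F) {r : ℝ} (hr : 0 < r) (hr1 : r < 1) :
    Real.circleAverage (Lam w F) 0 r = Lam w F 0 + ∫ z in ball (0 : ℂ) r, Gr r z * chiQ w f z := by
  have h1 := green_jensen (φ := Lam w F) hr fun z hz =>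
    Lam_contDiffAt hw hF (closedBall_subset_ball hr1 hz)
  have h2 : ∫ z in ball (0 : ℂ) r, Gr r z * ddb (Lam w F) z =
      ∫ z in ball (0 : ℂ) r, Gr r z * chiQ w f z := by
    refine MeasureTheory.setIntegral_congr_fun measurableSet_ball fun z hz => ?_
    rw [ddb_Lam hw hF (ball_subset_ball hr1.le hz)]
  rw [← h2, h1]
  ring

end Vale.Agent.P272.JN
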